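import Crest.Agent.X212.Rf65.Fin
import Crest.Agent.X212.Pat85.HsaA
import Crest.Agent.X212.Pat85.Hsa
import Crest.Agent.X212.Pte3.RdA
import Crest.Agent.X212.Cqn41.Pd2
import Crest.Agent.X212.Pte3.RdB
import Crest.Agent.X212.Nt92.Gau
import Crest.Agent.X212.Nt92.Main
import Crest.Agent.X212.Msi61.Rc0
import Crest.Agent.X212.Msi61.Rc1
import Crest.Agent.X212.Hp13.Hit
import Crest.Agent.X212.Lt56.A
import Crest.Agent.X212.Lt56.B
import Crest.Agent.X212.Lt56.Main
import Crest.Agent.X212.Abx52.Ng1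
import Crest.Agent.X212.Gau76.Fam
import Crest.Agent.X212.Gau76.Main
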